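import Vale.Agent.P196.Simple.Pieces

/-!
P196, module C: even permutations of pieces lie in the group.
-/

namespace Vale.Agent.P196.Simple

open scoped Classical
open Equiv

noncomputable section

/-- The even permutation `a → b → c → a`. -/
def cyc {α : Type*} [DecidableEq α] (a b c : α) : Perm α := swap a b * swap b c

lemma cyc_apply {α : Type*} [DecidableEq α] {a b c : α} (hab : a ≠ b) (hbc : b ≠ c) (hac : a ≠ c) :
    cyc a b c a = b ∧ cyc a b c b = c ∧ cyc a b c c = a ∧
      ∀ d, d ≠ a → d ≠ b → d ≠ c → cyc a b c d = d := by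
  refine ⟨?_, ?_, ?_, fun d h1 h2 h3 => ?_⟩
  all_goals simp [cyc, Perm.mul_apply, swap_apply_def]
  all_goals grind

lemma sign_cyc {α : Type*} [DecidableEq α] [Fintype α] {a b c : α} (hab : a ≠ b) (hbc : b ≠ c) :
    Perm.sign (cyc a b c) = 1 := by
  simp [cyc, Perm.sign_swap hab, Perm.sign_swap hbc]

/-- Every 3-cycle has this form. -/
lemma exists_cyc {α : Type*} [DecidableEq α] [Fintype α] {σ : Perm α} (hσ : σ.IsThreeCycle) :
    ∃ a b c, a ≠ b ∧ b ≠ c ∧ a ≠ c ∧ σ = cyc a b c := by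
  obtain ⟨a, b, c, hab, hac, hbc, hs⟩ := Finset.card_eq_three.1 hσ.card_support
  have hmem : ∀ d, σ d ≠ d ↔ (d = a ∨ d = b ∨ d = c) := fun d => by
    rw [← Perm.mem_support, hs]; simp
  have ha : σ a = b ∨ σ a = c := by
    have h1 := (hmem a).2 (Or.inl rfl)
    have h2 : σ (σ a) ≠ σ a := fun h => h1 (σ.injective h)
    rcases (hmem _).1 h2 with h | h | h
    · exact absurd h h1
    · exact Or.inl h
    · exact Or.inr h
  have fix : ∀ {a b c : α}, a ≠ b → b ≠ c → a ≠ c → (∀ d, σ d ≠ d ↔ (d = a ∨ d = b ∨ d = c)) →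
      σ a = b → σ = cyc a b c := by
    intro a b c hab hbc hac hmem ha
    obtain ⟨c1, c2, c3, c4⟩ := cyc_apply hab hbc hac
    have hb : σ b = c := by
      have h1 := (hmem b).2 (Or.inr (Or.inl rfl))
      have h2 : σ (σ b) ≠ σ b := fun h => h1 (σ.injective h)
      rcases (hmem _).1 h2 with h | h | h
      · exfalso
        -- otherwise `σ` swaps `a` and `b` and moves `c` onto itself
        have hc := (hmem c).2 (Or.inr (Or.inr rfl))
        have h3 : σ (σ c) ≠ σ c := fun h => hc (σ.injective h)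
        rcases (hmem _).1 h3 with h' | h' | h'
        · exact hbc (σ.injective (h.trans h'.symm))
        · exact hac (σ.injective (ha.trans h'.symm))
        · exact hc h'
      · exact absurd h h1
      · exact h
    have hc : σ c = a := by
      have h1 := (hmem c).2 (Or.inr (Or.inr rfl))
      have h2 : σ (σ c) ≠ σ c := fun h => h1 (σ.injective h)
      rcases (hmem _).1 h2 with h | h | h
      · exact h
      · exact absurd (σ.injective (h.trans ha.symm)) hac.symm
      · exact absurd h h1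
    ext d
    by_cases h1 : d = a
    · rw [h1, c1, ha]
    by_cases h2 : d = b
    · rw [h2, c2, hb]
    by_cases h3 : d = c
    · rw [h3, c3, hc]
    rw [c4 d h1 h2 h3]
    by_contra h
    rcases (hmem d).1 h with h | h | h
    exacts [h1 h, h2 h, h3 h]
  rcases ha with ha | ha
  · exact ⟨a, b, c, hab, hbc, hac, fix hab hbc hac hmem ha⟩
  · exact ⟨a, c, b, hac, hbc.symm, hab, fix hac hbc.symm hab
      (fun d => (hmem d).trans (by tauto)) ha⟩

variable {k : ℕ} {V X : Type*} [AddCommGroup V] [AddAction V X] [TopologicalSpace X]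
  [ContinuousConstVAdd V X]

omit [TopologicalSpace X] [ContinuousConstVAdd V X] in
lemma piece_apply {ι : Type*} (P : ι ↪ Fin k × V) (U : Set X)
    (hU : Apart U (Set.range fun a => (P a).2)) (a : ι) (x : U) :
    piece P U hU (a, x) = ((P a).1, (P a).2 +ᵥ (x : X)) := rfl

lemma exists_fresh (_hk : 5 ≤ k) (s : Finset (Fin k)) (hs : s.card + 1 ≤ k) : ∃ f, f ∉ s := by
  by_contra! h
  have := Finset.card_le_card (fun f _ => h f : (Finset.univ : Finset (Fin k)) ⊆ s)
  simp at this
  omega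

omit [ContinuousConstVAdd V X] in
/-- Three pieces in distinct colours. -/
lemma triple_mem_distinct (hk : 5 ≤ k) (T : Fin 3 ↪ Fin k × V) (U : TopologicalSpace.Clopens X)
    (hT : Function.Injective fun a => (T a).1) (hU : Apart (U : Set X) (Set.range fun a => (T a).2)) :
    Φ T (U : Set X) hU (cyc 0 1 2) ∈ G k V X := by
  set a := (T 0).1
  set b := (T 1).1
  set c := (T 2).1
  obtain ⟨d, hd⟩ := exists_fresh hk {a, b, c} (by
    have : ({a, b, c} : Finset (Fin k)).card ≤ 3 := Finset.card_le_three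
    omega)
  simp only [Finset.mem_insert, Finset.mem_singleton, not_or] at hd
  set v : Fin k → V := Pi.single a (T 0).2 + Pi.single b (T 1).2 + Pi.single c (T 2).2 -
    Pi.single d ((T 0).2 + (T 1).2 + (T 2).2)
  have hv : ∑ i, v i = 0 := by
    simp [v, Finset.sum_add_distrib, Finset.sum_sub_distrib]
  have hab : a ≠ b := hT.ne (by decide)
  have hbc : b ≠ c := hT.ne (by decide)
  have hac : a ≠ c := hT.ne (by decide)
  have hvT : ∀ i, v (T i).1 = (T i).2 := by
    intro i
    fin_cases i <;> simp [v, a, b, c, Pi.single_apply] at hd hab hbc hac ⊢ <;>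
      simp [Ne.symm hd.1, Ne.symm hd.2.1, Ne.symm hd.2.2, hab, hbc, hac,
        Ne.symm hab, Ne.symm hbc, Ne.symm hac]
  set π : alternatingGroup (Fin k) := ⟨cyc a b c, sign_cyc hab hbc⟩
  let T₀ : Fin 3 ↪ Fin k × V := ⟨fun i => ((T i).1, 0), fun i j h => hT (Prod.mk.inj h).1⟩
  have hU₀ : Apart (U : Set X) (Set.range fun i => (T₀ i).2) := by
    rintro _ ⟨i, rfl⟩ _ ⟨j, rfl⟩ x _ y _ _
    rfl
  have e0 : Φ T₀ (U : Set X) hU₀ (cyc 0 1 2) = colU U π := by
    rw [Φ_eq]
    obtain ⟨h1, h2, h3, h4⟩ := cyc_apply hab hbc hac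
    obtain ⟨g1, g2, g3, -⟩ := cyc_apply (α := Fin 3) (a := 0) (b := 1) (c := 2) (by decide)
      (by decide) (by decide)
    refine viaEmbedding_ext (fun ⟨i, x⟩ => ?_) fun ⟨i, x⟩ hix => ?_
    · show colU U π ((T i).1, (0 : V) +ᵥ (x : X)) = ((T (cyc 0 1 2 i)).1, (0 : V) +ᵥ (x : X))
      rw [zero_vadd, colU_apply, if_pos (show (x : X) ∈ U from x.2)]
      fin_cases i
      · simp only [Fin.zero_eta, g1]; exact Prod.ext h1 rfl
      · simp only [Fin.mk_one, g2]; exact Prod.ext h2 rfl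
      · simp only [Fin.reduceFinMk, g3]; exact Prod.ext h3 rfl
    · rw [colU_apply]
      refine Prod.ext ?_ rfl
      split_ifs with hx
      · refine h4 i ?_ ?_ ?_ <;> intro hi
        · exact hix ⟨(0, ⟨x, hx⟩), Prod.ext hi.symm (zero_vadd V x)⟩
        · exact hix ⟨(1, ⟨x, hx⟩), Prod.ext hi.symm (zero_vadd V x)⟩
        · exact hix ⟨(2, ⟨x, hx⟩), Prod.ext hi.symm (zero_vadd V x)⟩
      · rfl
  have key : Φ T (U : Set X) hU (cyc 0 1 2) = tr v * Φ T₀ (U : Set X) hU₀ (cyc 0 1 2) * (tr v)⁻¹ := by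
    rw [Φ_eq, Φ_eq]
    refine conj_viaEmbedding (fun ⟨i, x⟩ => ?_) _
    show tr v ((T i).1, (0 : V) +ᵥ (x : X)) = _
    rw [zero_vadd, tr_apply, hvT, piece_apply]
  rw [key, e0]
  exact mul_mem (mul_mem (tr_mem hv) (colU_mem U π)) (inv_mem (tr_mem hv))

/-- Give one piece of a triple a fresh colour. -/
lemma triple_step (hk : 5 ≤ k) (T : Fin 3 ↪ Fin k × V) (U : TopologicalSpace.Clopens X)
    (hU : Apart (U : Set X) (Set.range fun a => (T a).2)) (i : Fin 3) :
    ∃ T' : Fin 3 ↪ Fin k × V, ∃ hU' : Apart (U : Set X) (Set.range fun a => (T' a).2),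
      (∀ j, j ≠ i → T' j = T j ∧ (T' i).1 ≠ (T' j).1) ∧
        (Φ T' (U : Set X) hU' (cyc 0 1 2) ∈ G k V X → Φ T (U : Set X) hU (cyc 0 1 2) ∈ G k V X) := by
  set S : Finset (Fin k) := Finset.univ.image fun j => (T j).1
  have hS : S.card ≤ 3 := Finset.card_image_le.trans (by simp)
  obtain ⟨f, hf⟩ := exists_fresh hk S (by omega)
  obtain ⟨f', hf'⟩ := exists_fresh hk (insert f S) (by
    rw [Finset.card_insert_of_notMem hf]; omega)
  simp only [S, Finset.mem_insert, Finset.mem_image, Finset.mem_univ, true_and, not_or,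
    not_exists] at hf hf'
  obtain ⟨h1, h2, h3, h4⟩ := cyc_apply (hf i) (Ne.symm hf'.1) (hf'.2 i)
  set π : alternatingGroup (Fin k) :=
    ⟨cyc (T i).1 f f', sign_cyc (hf i) (Ne.symm hf'.1)⟩
  let T' : Fin 3 ↪ Fin k × V :=
    ⟨fun j => if j = i then (f, (T i).2) else T j, fun j l h => by
      by_cases hj : j = i <;> by_cases hl : l = i <;> simp [hj, hl] at h ⊢
      · exact absurd (congrArg Prod.fst h).symm (hf l)
      · exact absurd (congrArg Prod.fst h) (hf j)
      · exact h⟩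
  have hpos : ∀ j, (T' j).2 = (T j).2 := fun j => by
    show (if j = i then (f, (T i).2) else T j).2 = _
    split_ifs with h <;> simp [h]
  have hU' : Apart (U : Set X) (Set.range fun a => (T' a).2) := by simpa only [hpos] using hU
  refine ⟨T', hU', fun j hj => ⟨if_neg hj, ?_⟩, fun hmem => ?_⟩
  · show (if i = i then (f, (T i).2) else T i).1 ≠ (if j = i then (f, (T i).2) else T j).1
    rw [if_pos rfl, if_neg hj]
    exact fun h => hf j h.symm
  let U' : TopologicalSpace.Clopens X :=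
    ⟨(fun x => (T i).2 +ᵥ x) '' U, (Homeomorph.vadd (T i).2).isClosedMap _ U.2.isClosed,
      (Homeomorph.vadd (T i).2).isOpenMap _ U.2.isOpen⟩
  have key : Φ T' (U : Set X) hU' (cyc 0 1 2) =
      colU U' π * Φ T (U : Set X) hU (cyc 0 1 2) * (colU U' π)⁻¹ := by
    rw [Φ_eq, Φ_eq]
    refine conj_viaEmbedding (fun ⟨j, x⟩ => ?_) _
    simp only [piece_apply, colU_apply, hpos]
    refine Prod.ext ?_ rfl
    show _ = (if j = i then (f, (T i).2) else T j).1
    by_cases hj : j = i
    · subst hj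
      rw [if_pos (show (T j).2 +ᵥ (x : X) ∈ U' from ⟨x, x.2, rfl⟩), if_pos rfl]
      exact h1
    · rw [if_neg hj]
      split_ifs with hx
      · obtain ⟨y, hy, hxy⟩ := hx
        have he : (T i).2 = (T j).2 := hU _ ⟨i, rfl⟩ _ ⟨j, rfl⟩ y hy x x.2 hxy
        exact h4 _ (fun h => hj (T.injective (Prod.ext h he.symm))) (hf j) (hf'.2 j)
      · rfl
  rw [key] at hmem
  simpa [mul_assoc] using mul_mem (mul_mem (inv_mem (colU_mem U' π)) hmem) (colU_mem U' π)

/-- Any three pieces. -/
lemma triple_mem (hk : 5 ≤ k) (T : Fin 3 ↪ Fin k × V) (U : TopologicalSpace.Clopens X)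
    (hU : Apart (U : Set X) (Set.range fun a => (T a).2)) :
    Φ T (U : Set X) hU (cyc 0 1 2) ∈ G k V X := by
  obtain ⟨T₁, hU₁, h1, imp1⟩ := triple_step hk T U hU 0
  obtain ⟨T₂, hU₂, h2, imp2⟩ := triple_step hk T₁ U hU₁ 1
  refine imp1 (imp2 (triple_mem_distinct hk T₂ U (fun a b h => ?_) hU₂))
  have e0 := (h2 0 (by decide)).1
  have e2 := (h2 2 (by decide)).1
  have n10 := (h2 0 (by decide)).2
  have n12 := (h2 2 (by decide)).2
  have n02 : (T₂ 0).1 ≠ (T₂ 2).1 := by
    rw [e0, e2]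
    exact (h1 2 (by decide)).2
  fin_cases a <;> fin_cases b <;>
    simp only [Fin.zero_eta, Fin.mk_one, Fin.reduceFinMk] at h ⊢
  all_goals first
    | rfl
    | exact absurd h n02 | exact absurd h n10 | exact absurd h n12
    | exact absurd h.symm n02 | exact absurd h.symm n10 | exact absurd h.symm n12

/-- Every even permutation of finitely many pieces. -/
theorem alt_mem (hk : 5 ≤ k) {ι : Type*} [Fintype ι] [DecidableEq ι] (P : ι ↪ Fin k × V)
    (U : TopologicalSpace.Clopens X) (hU : Apart (U : Set X) (Set.range fun a => (P a).2))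
    {σ : Perm ι} (hσ : σ ∈ alternatingGroup ι) : Φ P (U : Set X) hU σ ∈ G k V X := by
  rw [← Perm.closure_three_cycles_eq_alternating] at hσ
  induction hσ using Subgroup.closure_induction with
  | one => rw [map_one]; exact one_mem _
  | mul x y _ _ hx hy => rw [map_mul]; exact mul_mem hx hy
  | inv x _ hx => rw [map_inv]; exact inv_mem hx
  | mem σ hσ =>
    obtain ⟨a, b, c, hab, hbc, hac, rfl⟩ := exists_cyc hσ
    let f : Fin 3 ↪ ι := ⟨![a, b, c], fun i j h => by
      fin_cases i <;> fin_cases j <;> simp_all [Ne.symm hab, Ne.symm hbc, Ne.symm hac]⟩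
    have hU' : Apart (U : Set X) (Set.range fun i => ((f.trans P) i).2) := by
      rintro _ ⟨i, rfl⟩ _ ⟨j, rfl⟩
      exact hU _ ⟨f i, rfl⟩ _ ⟨f j, rfl⟩
    have e : cyc a b c = (cyc (0 : Fin 3) 1 2).viaEmbedding f := by
      obtain ⟨c1, c2, c3, c4⟩ := cyc_apply hab hbc hac
      obtain ⟨g1, g2, g3, -⟩ := cyc_apply (α := Fin 3) (a := 0) (b := 1) (c := 2) (by decide)
        (by decide) (by decide)
      refine (viaEmbedding_ext (fun i => ?_) fun d hd => c4 d ?_ ?_ ?_).symm
      · fin_cases i <;> simp only [Fin.zero_eta, Fin.mk_one, Fin.reduceFinMk, g1, g2, g3]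
        exacts [c1, c2, c3]
      all_goals rintro rfl
      · exact hd ⟨0, rfl⟩
      · exact hd ⟨1, rfl⟩
      · exact hd ⟨2, rfl⟩
    rw [e, ← Φ_sub P f (U : Set X) hU hU']
    exact triple_mem hk _ U hU'

end

end Vale.Agent.P196.Simple
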