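import Vale.Agent.P196.Simple.Cycles

/-!
P196, module C: a non-trivial normalised subgroup contains all colourings and translations.
-/

namespace Vale.Agent.P196.Simple

open scoped Classical
open Equiv TopologicalSpace

noncomputable section

variable {k : ℕ} {V X : Type*} [AddCommGroup V] [AddAction V X] [TopologicalSpace X]

/-- Locally a translation and a change of colour. -/
def IsLoc (g : Perm (Fin k × X)) (V : Type*) [AddCommGroup V] [AddAction V X] : Prop :=
  ∀ i x, ∃ (j : Fin k) (v : V) (U : Set X), IsOpen U ∧ x ∈ U ∧ ∀ y ∈ U, g (i, y) = (j, v +ᵥ y)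

lemma isLoc_of_mem [ContinuousConstVAdd V X] {g : Perm (Fin k × X)} (hg : g ∈ G k V X) :
    IsLoc g V := by
  have hcol : ∀ s : LocallyConstant X (alternatingGroup (Fin k)), IsLoc (col s) V := fun s i x =>
    ⟨(s x : Perm (Fin k)) i, 0, s ⁻¹' {s x}, s.isLocallyConstant.isOpen_fiber _, rfl, fun y hy => by
      rw [zero_vadd, col_apply, show s y = s x from hy]⟩
  have htr : ∀ v : Fin k → V, IsLoc (tr v : Perm (Fin k × X)) V := fun v i x =>
    ⟨i, v i, Set.univ, isOpen_univ, trivial, fun y _ => tr_apply v i y⟩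
  refine Subgroup.closure_induction'' (p := fun g _ => IsLoc g V) ?_ ?_ ?_ ?_ hg
  · rintro _ (⟨s, rfl⟩ | ⟨v, -, rfl⟩)
    exacts [hcol s, htr v]
  · rintro _ (⟨s, rfl⟩ | ⟨v, -, rfl⟩)
    · rw [col_inv]; exact hcol _
    · rw [tr_inv]; exact htr _
  · exact fun i x => ⟨i, 0, Set.univ, isOpen_univ, trivial, fun y _ => by simp⟩
  · intro a b _ _ ha hb i x
    obtain ⟨j, v, U, hU, hx, h⟩ := hb i x
    obtain ⟨l, w, W, hW, hx', h'⟩ := ha j (v +ᵥ x)
    refine ⟨l, w + v, U ∩ (fun y => v +ᵥ y) ⁻¹' W, hU.inter (hW.preimage (continuous_const_vadd v)),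
      ⟨hx, hx'⟩, fun y hy => ?_⟩
    rw [Perm.mul_apply, h y hy.1, h' _ hy.2, add_vadd]

section

variable [T2Space X] [CompactSpace X] [TotallyDisconnectedSpace X] [ContinuousConstVAdd V X]

/-- Small clopen sets have disjoint translates. -/
lemma exists_apart (hfree : ∀ (v : V) (x : X), v +ᵥ x = x → v = 0) (D : Finset V) (x : X)
    {U₀ : Set X} (hU₀ : IsOpen U₀) (hx : x ∈ U₀) :
    ∃ U : Clopens X, x ∈ U ∧ (U : Set X) ⊆ U₀ ∧ Apart (U : Set X) (D : Set V) := by
  have hsep : ∀ p : V × V, ∃ W : Set X, IsOpen W ∧ x ∈ W ∧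
      (p.1 ≠ p.2 → ∀ a ∈ W, ∀ b ∈ W, p.1 +ᵥ a ≠ p.2 +ᵥ b) := by
    rintro ⟨v, w⟩
    by_cases h : v = w
    · exact ⟨Set.univ, isOpen_univ, trivial, fun h' => absurd h h'⟩
    have hne : v +ᵥ x ≠ w +ᵥ x := fun he => h <| by
      have : (-w + v) +ᵥ x = x := by rw [add_vadd, he, neg_vadd_vadd]
      exact (neg_add_eq_zero.1 (hfree _ _ this)).symm
    obtain ⟨A, B, hA, hB, hxA, hxB, hd⟩ := t2_separation hne
    exact ⟨(fun a => v +ᵥ a) ⁻¹' A ∩ (fun a => w +ᵥ a) ⁻¹' B,
      (hA.preimage (continuous_const_vadd v)).inter (hB.preimage (continuous_const_vadd w)),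
      ⟨hxA, hxB⟩, fun _ a ha b hb he => Set.disjoint_left.1 hd ha.1 (show v +ᵥ a ∈ B by rw [he]; exact hb.2)⟩
  choose W hW hxW hWd using hsep
  have hopen : IsOpen (U₀ ∩ ⋂ p ∈ D ×ˢ D, W p) :=
    hU₀.inter (isOpen_biInter_finset fun p _ => hW p)
  obtain ⟨U, hU, hxU, hsub⟩ := compact_exists_isClopen_in_isOpen hopen
    (show x ∈ U₀ ∩ ⋂ p ∈ D ×ˢ D, W p from ⟨hx, Set.mem_iInter₂.2 fun p _ => hxW p⟩)
  refine ⟨⟨U, hU⟩, hxU, fun y hy => (hsub hy).1, fun v hv w hw a ha b hb he => ?_⟩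
  by_contra hne
  have hmem : (v, w) ∈ D ×ˢ D := Finset.mem_product.2 ⟨hv, hw⟩
  exact hWd (v, w) hne a (Set.mem_iInter₂.1 (hsub ha).2 _ hmem) b
    (Set.mem_iInter₂.1 (hsub hb).2 _ hmem) he

end

/-- Colour changes at the origin are piece permutations. -/
lemma Φ_zero {ι : Type*} (P : ι ↪ Fin k × V) (e : Fin k ↪ ι) (he : ∀ i, P (e i) = (i, 0))
    (U : Clopens X) (hU : Apart (U : Set X) (Set.range fun a => (P a).2))
    (π : alternatingGroup (Fin k)) :
    colU U π = Φ P (U : Set X) hU ((π : Perm (Fin k)).viaEmbedding e) := by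
  rw [Φ_eq]
  refine (viaEmbedding_ext (fun ⟨a, x⟩ => ?_) fun ⟨i, x⟩ hix => ?_).symm
  · show colU U π (piece P (U : Set X) hU (a, x)) =
      piece P (U : Set X) hU ((π : Perm (Fin k)).viaEmbedding e a, x)
    rw [piece_apply, piece_apply, colU_apply]
    by_cases ha : a ∈ Set.range e
    · obtain ⟨i, rfl⟩ := ha
      rw [Perm.viaEmbedding_apply, he, he]
      simp only [zero_vadd]
      rw [if_pos (show (x : X) ∈ U from x.2)]
    · rw [Perm.viaEmbedding_apply_of_notMem _ _ _ ha]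
      refine Prod.ext ?_ rfl
      split_ifs with hx
      · exfalso
        obtain ⟨i, hi⟩ : ∃ i, i = (P a).1 := ⟨_, rfl⟩
        have := hU _ ⟨a, rfl⟩ _ ⟨e i, rfl⟩ x x.2 _ hx (by simp [he])
        simp only [he] at this
        exact ha ⟨i, P.injective (by rw [he]; exact Prod.ext hi this.symm)⟩
      · rfl
  · rw [colU_apply]
    refine Prod.ext ?_ rfl
    split_ifs with hx
    · exact absurd ⟨(e i, ⟨x, hx⟩), by rw [piece_apply, he]; simp⟩ hix
    · rfl

omit [TopologicalSpace X] in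
lemma col_apart {D : Finset V} {U : Set X} (h : Apart U (D : Set V)) {ι : Type*} {P : ι → V}
    (hP : ∀ a, P a ∈ D) : Apart U (Set.range P) := by
  rintro _ ⟨a, rfl⟩ _ ⟨b, rfl⟩
  exact h _ (hP a) _ (hP b)

omit [TopologicalSpace X] in
/-- Conjugating permutations of pieces. -/
lemma Φ_conj {ι : Type*} {P P' : ι ↪ Fin k × V} {U : Set X}
    {hU : Apart U (Set.range fun a => (P a).2)} {hU' : Apart U (Set.range fun a => (P' a).2)}
    {h : Perm (Fin k × X)}
    (hh : ∀ a, ∀ y ∈ U, h ((P a).1, (P a).2 +ᵥ y) = ((P' a).1, (P' a).2 +ᵥ y)) (σ : Perm ι) :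
    Φ P' U hU' σ = h * Φ P U hU σ * h⁻¹ := by
  rw [Φ_eq, Φ_eq]
  exact conj_viaEmbedding (fun ⟨a, y⟩ => hh a y y.2) _

lemma viaEmbedding_mem_alt {α β : Type*} [Fintype α] [DecidableEq α] [Fintype β] [DecidableEq β]
    (e : α ↪ β) {σ : Perm α} (hσ : σ ∈ alternatingGroup α) :
    σ.viaEmbedding e ∈ alternatingGroup β := by
  rw [Perm.mem_alternatingGroup, Perm.viaEmbedding, Perm.sign_extendDomain]
  exact hσ

variable (H : Subgroup (Perm (Fin k × X))) (hnorm : ∀ g ∈ G k V X, ∀ h ∈ H, g * h * g⁻¹ ∈ H)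

/-- A normalised subgroup meeting the even permutations of some pieces non-trivially contains
them all. -/
lemma pieces_mem [ContinuousConstVAdd V X] (hk : 5 ≤ k) {ι : Type*} [Fintype ι] [DecidableEq ι]
    (hι : 5 ≤ Nat.card ι) (P : ι ↪ Fin k × V) (U : Clopens X)
    (hU : Apart (U : Set X) (Set.range fun a => (P a).2))
    (hnorm : ∀ g ∈ G k V X, ∀ h ∈ H, g * h * g⁻¹ ∈ H)
    {σ : Perm ι} (hσ : σ ∈ alternatingGroup ι) (h1 : σ ≠ 1)
    (hmem : Φ P (U : Set X) hU σ ∈ H) :
    ∀ τ ∈ alternatingGroup ι, Φ P (U : Set X) hU τ ∈ H := by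
  let ψ : alternatingGroup ι →* Perm (Fin k × X) :=
    (Φ P (U : Set X) hU).comp (alternatingGroup ι).subtype
  have hN : (H.comap ψ).Normal := ⟨fun n hn g => by
    show ψ (g * n * g⁻¹) ∈ H
    rw [map_mul, map_mul, map_inv]
    exact hnorm _ (alt_mem hk P U hU g.2) _ hn⟩
  have := alternatingGroup.isSimpleGroup (α := ι) hι
  have htop : H.comap ψ = ⊤ := hN.eq_bot_or_eq_top.resolve_left fun hbot => h1 <| by
    have : (⟨σ, hσ⟩ : alternatingGroup ι) ∈ H.comap ψ := hmem
    rw [hbot, Subgroup.mem_bot] at this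
    exact congrArg Subtype.val this
  intro τ hτ
  have : (⟨τ, hτ⟩ : alternatingGroup ι) ∈ H.comap ψ := by rw [htop]; trivial
  exact this

section

variable [T2Space X] [CompactSpace X] [TotallyDisconnectedSpace X] [ContinuousConstVAdd V X]

include hnorm in
/-- A non-trivial normalised subgroup contains all even permutations of the colours over some
non-empty clopen set. -/
lemma exists_colU (hk : 5 ≤ k) (hfree : ∀ (v : V) (x : X), v +ᵥ x = x → v = 0) (hHG : H ≤ G k V X)
    {h : Perm (Fin k × X)} (hh : h ∈ H) (h1 : h ≠ 1) :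
    ∃ U : Clopens X, (U : Set X).Nonempty ∧ ∀ π, colU U π ∈ H := by
  obtain ⟨⟨i, x⟩, hix⟩ : ∃ p, h p ≠ p := by
    by_contra! hc
    exact h1 (Equiv.ext hc)
  choose j v W hWo hxW hWeq using fun l => isLoc_of_mem (hHG hh) l x
  set F : Finset (Fin k × V) :=
    Finset.univ.image (fun l => (l, (0 : V))) ∪ Finset.univ.image (fun l => (j l, v l))
  obtain ⟨U, hxU, hUsub, hUap⟩ := exists_apart hfree (F.image Prod.snd) x
    (isOpen_iInter_of_finite hWo) (Set.mem_iInter.2 hxW)
  have hgy : ∀ l, ∀ y ∈ (U : Set X), h (l, y) = (j l, v l +ᵥ y) :=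
    fun l y hy => hWeq l y (Set.mem_iInter.1 (hUsub hy) l)
  let P : F ↪ Fin k × V := Function.Embedding.subtype _
  have hUP : Apart (U : Set X) (Set.range fun a => (P a).2) :=
    col_apart hUap fun a => Finset.mem_image.2 ⟨a.1, a.2, rfl⟩
  let e₀ : Fin k ↪ F :=
    ⟨fun l => ⟨(l, 0), Finset.mem_union_left _ (Finset.mem_image_of_mem _ (Finset.mem_univ l))⟩,
      fun l l' e => (Prod.mk.inj (congrArg Subtype.val e)).1⟩
  let e₁ : Fin k ↪ F :=
    ⟨fun l => ⟨(j l, v l),
      Finset.mem_union_right _ (Finset.mem_image_of_mem _ (Finset.mem_univ l))⟩,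
      fun l l' e => by
        have he : j l = j l' ∧ v l = v l' := Prod.mk.inj (congrArg Subtype.val e)
        have : h (l, x) = h (l', x) := by rw [hgy l x hxU, hgy l' x hxU, he.1, he.2]
        exact (Prod.mk.inj (h.injective this)).1⟩
  obtain ⟨b, hb⟩ := exists_fresh hk {i, j i} (by
    have : ({i, j i} : Finset (Fin k)).card ≤ 2 := Finset.card_le_two
    omega)
  obtain ⟨d, hd⟩ := exists_fresh hk {i, j i, b} (by
    have : ({i, j i, b} : Finset (Fin k)).card ≤ 3 := Finset.card_le_three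
    omega)
  simp only [Finset.mem_insert, Finset.mem_singleton, not_or] at hb hd
  obtain ⟨c1, -, -, c4⟩ := cyc_apply (Ne.symm hb.1) (Ne.symm hd.2.2) (Ne.symm hd.1)
  set π := cyc i b d
  have hπ : π ∈ alternatingGroup (Fin k) := sign_cyc (Ne.symm hb.1) (Ne.symm hd.2.2)
  have hU₀ : Apart (U : Set X) (Set.range fun l => ((e₀.trans P) l).2) :=
    col_apart hUap fun l => Finset.mem_image.2 ⟨(e₀ l).1, (e₀ l).2, rfl⟩
  have hU₁ : Apart (U : Set X) (Set.range fun l => ((e₁.trans P) l).2) :=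
    col_apart hUap fun l => Finset.mem_image.2 ⟨(e₁ l).1, (e₁ l).2, rfl⟩
  have hσ := viaEmbedding_mem_alt e₀ hπ
  have hσ' := viaEmbedding_mem_alt e₁ hπ
  have key : Φ P (U : Set X) hUP (π.viaEmbedding e₁) =
      h * Φ P (U : Set X) hUP (π.viaEmbedding e₀) * h⁻¹ := by
    rw [← Φ_sub P e₀ (U : Set X) hUP hU₀, ← Φ_sub P e₁ (U : Set X) hUP hU₁]
    refine Φ_conj (fun l y hy => ?_) π
    show h (l, (0 : V) +ᵥ y) = (j l, v l +ᵥ y)
    rw [zero_vadd, hgy l y hy]
  have hmem : Φ P (U : Set X) hUP (π.viaEmbedding e₁ * (π.viaEmbedding e₀)⁻¹) ∈ H := by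
    rw [map_mul, map_inv, key]
    simpa [mul_assoc] using mul_mem hh (hnorm _ (alt_mem hk P U hUP hσ) _ (inv_mem hh))
  have hne : π.viaEmbedding e₁ * (π.viaEmbedding e₀)⁻¹ ≠ 1 := by
    rw [ne_eq, mul_inv_eq_one]
    intro e
    have hfix : π.viaEmbedding e₀ (e₁ i) = e₁ i := by
      by_cases hr : e₁ i ∈ Set.range e₀
      · obtain ⟨l, hl⟩ := hr
        obtain ⟨hl1, hl2⟩ : l = j i ∧ (0 : V) = v i := Prod.mk.inj (congrArg Subtype.val hl)
        rw [← hl, Perm.viaEmbedding_apply]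
        refine congrArg e₀ (c4 l ?_ ?_ ?_)
        · rintro rfl
          exact hix (by rw [hgy l x hxU, ← hl1, ← hl2, zero_vadd])
        · exact fun e => hb.2 (e.symm.trans hl1)
        · exact fun e => hd.2.1 (e.symm.trans hl1)
      · exact Perm.viaEmbedding_apply_of_notMem _ _ _ hr
    rw [← e, Perm.viaEmbedding_apply, c1] at hfix
    exact hb.1 (e₁.injective hfix)
  have hcard : 5 ≤ Nat.card F :=
    le_trans (by simpa using hk) (Nat.card_le_card_of_injective e₀ e₀.injective)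
  have hall := pieces_mem H hk hcard P U hUP hnorm (mul_mem hσ' (inv_mem hσ)) hne hmem
  refine ⟨U, ⟨x, hxU⟩, fun ρ => ?_⟩
  rw [Φ_zero P e₀ (fun l => rfl) U hUP ρ]
  exact hall _ (viaEmbedding_mem_alt e₀ ρ.2)

end

open scoped commutatorElement in
include hnorm in
/-- Colourings over intersections. -/
lemma colU_inter (hk : 5 ≤ k) (A B : Clopens X) (hA : ∀ π, colU A π ∈ H)
    (π : alternatingGroup (Fin k)) : colU (A ⊓ B) π ∈ H := by
  have hle : commutator (alternatingGroup (Fin k)) ≤ H.comap (colU (A ⊓ B)) := by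
    rw [commutator_eq_closure, Subgroup.closure_le]
    rintro _ ⟨a, b, rfl⟩
    show colU (A ⊓ B) ⁅a, b⁆ ∈ H
    have e : colU (A ⊓ B) ⁅a, b⁆ = colU A a * (colU B b * colU A a⁻¹ * (colU B b)⁻¹) := by
      rw [← map_inv (colU B)]
      refine Equiv.ext fun ⟨l, y⟩ => ?_
      simp only [commutatorElement_def, Perm.mul_apply, colU_apply]
      by_cases hyA : y ∈ A <;> by_cases hyB : y ∈ B <;>
        simp [hyA, hyB, show y ∈ A ⊓ B ↔ y ∈ A ∧ y ∈ B from Iff.rfl]
    rw [e]
    exact mul_mem (hA a) (hnorm _ (colU_mem B b) _ (hA a⁻¹))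
  rw [commutator_alternatingGroup_eq_top (by simpa using hk)] at hle
  exact hle (Subgroup.mem_top π)

include hnorm in
/-- Colourings over translates. -/
lemma colU_shift (hk : 5 ≤ k) (v : V) (A A' : Clopens X) (hA : ∀ π, colU A π ∈ H)
    (hA' : ∀ y, y ∈ A' ↔ -v +ᵥ y ∈ A) (π : alternatingGroup (Fin k)) : colU A' π ∈ H := by
  have hle : Subgroup.closure {π : alternatingGroup (Fin k) | (π : Perm (Fin k)).IsThreeCycle} ≤
      H.comap (colU A') := by
    rw [Subgroup.closure_le]
    intro π hπ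
    obtain ⟨a, b, c, hab, hbc, hac, e⟩ := exists_cyc hπ
    obtain ⟨d, hd⟩ := exists_fresh hk {a, b, c} (by
      have : ({a, b, c} : Finset (Fin k)).card ≤ 3 := Finset.card_le_three
      omega)
    simp only [Finset.mem_insert, Finset.mem_singleton, not_or] at hd
    set u : Fin k → V := Pi.single a v + Pi.single b v + Pi.single c v -
      Pi.single d (v + v + v)
    have hu : ∑ l, u l = 0 := by simp [u, Finset.sum_add_distrib, Finset.sum_sub_distrib]
    have hu3 : ∀ l, l = a ∨ l = b ∨ l = c → u l = v := by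
      rintro l (rfl | rfl | rfl)
      · simp [u, hab, hac, Ne.symm hd.1]
      · simp [u, Ne.symm hab, hbc, Ne.symm hd.2.1]
      · simp [u, Ne.symm hbc, Ne.symm hac, Ne.symm hd.2.2]
    obtain ⟨c1, c2, c3, c4⟩ := cyc_apply hab hbc hac
    have hmove : ∀ l, u ((π : Perm (Fin k)) l) = u l ∧
        ((π : Perm (Fin k)) l = l ∨ u l = v) := by
      intro l
      rw [e]
      by_cases h1 : l = a
      · rw [h1, c1, hu3 a (by simp), hu3 b (by simp)]; simp
      by_cases h2 : l = b
      · rw [h2, c2, hu3 b (by simp), hu3 c (by simp)]; simp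
      by_cases h3 : l = c
      · rw [h3, c3, hu3 c (by simp), hu3 a (by simp)]; simp
      rw [c4 l h1 h2 h3]; simp
    show colU A' π ∈ H
    have key : colU A' π = tr u * colU A π * (tr u : Perm (Fin k × X))⁻¹ := by
      refine Equiv.ext fun ⟨l, y⟩ => ?_
      simp only [tr_inv, Perm.mul_apply, tr_apply, colU_apply, Pi.neg_apply, hA']
      obtain ⟨m1, m2 | m2⟩ := hmove l
      · simp [m2]
      · simp only [m2]
        split_ifs <;> simp [m1, m2]
    rw [key]
    exact hnorm _ (tr_mem hu) _ (hA π)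
  rw [alternatingGroup.closure_isThreeCycles_eq_top] at hle
  exact hle (Subgroup.mem_top π)

include hnorm in
/-- Colourings over any clopen set. -/
lemma colU_closure [CompactSpace X] [ContinuousConstVAdd V X] (hk : 5 ≤ k)
    (hmin : ∀ U : Set X, IsOpen U → U.Nonempty → ∀ x, ∃ v : V, v +ᵥ x ∈ U)
    {U : Clopens X} (hne : (U : Set X).Nonempty) (hU : ∀ π, colU U π ∈ H) :
    ∀ (W : Clopens X) π, colU W π ∈ H := by
  -- finitely many translates of `U` cover `X`
  let T : V → Clopens X := fun v =>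
    ⟨(fun y => -v +ᵥ y) ⁻¹' U, U.2.preimage (continuous_const_vadd _)⟩
  obtain ⟨s, hs⟩ := isCompact_univ.elim_finite_subcover (fun v => (T v : Set X))
    (fun v => (T v).2.isOpen) fun y _ => by
      obtain ⟨v, hv⟩ := hmin U U.2.isOpen hne y
      exact Set.mem_iUnion.2 ⟨-v, show -(-v) +ᵥ y ∈ U by rwa [neg_neg]⟩
  have hsup : ∀ t : Finset V, ∀ π, colU (t.sup T) π ∈ H := by
    intro t
    induction t using Finset.induction_on with
    | empty =>
      intro π
      rw [show colU ((∅ : Finset V).sup T) π = 1 from Equiv.ext fun ⟨l, y⟩ => by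
        rw [colU_apply]; simp [show y ∉ (⊥ : Clopens X) from id]]
      exact one_mem H
    | insert v t hv ih =>
      intro π
      have e : colU ((insert v t).sup T) π = colU (T v) π * colU (t.sup T ⊓ (T v)ᶜ) π := by
        refine Equiv.ext fun ⟨l, y⟩ => ?_
        rw [Finset.sup_insert]
        simp only [Perm.mul_apply, colU_apply]
        by_cases h1 : y ∈ T v <;> by_cases h2 : y ∈ t.sup T <;>
          simp [h1, h2, show y ∈ T v ⊔ t.sup T ↔ y ∈ T v ∨ y ∈ t.sup T from Iff.rfl,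
            show y ∈ t.sup T ⊓ (T v)ᶜ ↔ y ∈ t.sup T ∧ y ∉ T v from Iff.rfl]
      rw [e]
      exact mul_mem (colU_shift H hnorm hk v U (T v) hU (fun y => Iff.rfl) π)
        (colU_inter H hnorm hk _ _ ih π)
  intro W π
  have htop : s.sup T = ⊤ := by
    refine Clopens.ext (Set.eq_univ_of_forall fun y => ?_)
    obtain ⟨v, hv, hy⟩ := Set.mem_iUnion₂.1 (hs (Set.mem_univ y))
    exact (Finset.le_sup hv : T v ≤ s.sup T) hy
  have := colU_inter H hnorm hk ⊤ W (htop ▸ hsup s) π
  rwa [top_inf_eq] at this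

/-- All colourings. -/
lemma col_mem_of_colU [CompactSpace X] (hU : ∀ (W : Clopens X) π, colU W π ∈ H)
    (s : LocallyConstant X (alternatingGroup (Fin k))) : col s ∈ H := by
  let C : alternatingGroup (Fin k) → Clopens X := fun π =>
    ⟨s ⁻¹' {π}, s.isLocallyConstant.isClopen_fiber π⟩
  suffices ∀ t : Finset (alternatingGroup (Fin k)),
      ∀ s' : LocallyConstant X (alternatingGroup (Fin k)),
        (∀ y, s' y = if s y ∈ t then s y else 1) → col s' ∈ H by
    exact this Finset.univ s fun y => by simp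
  intro t
  induction t using Finset.induction_on with
  | empty =>
    intro s' hs'
    rw [show col s' = 1 from Equiv.ext fun ⟨l, y⟩ => by simp [hs' y]]
    exact one_mem H
  | insert π t hπ ih =>
    intro s' hs'
    let s'' : LocallyConstant X (alternatingGroup (Fin k)) :=
      ⟨fun y => if s y ∈ t then s y else 1,
        s.isLocallyConstant.comp (fun π => if π ∈ t then π else 1)⟩
    have e : col s' = colU (C π) π * col s'' := by
      refine Equiv.ext fun ⟨l, y⟩ => ?_
      simp only [Perm.mul_apply, col_apply, colU_apply, hs' y]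
      show _ = (if y ∈ C π then
        (π : Perm (Fin k)) (((if s y ∈ t then s y else 1 : alternatingGroup (Fin k)) :
          Perm (Fin k)) l) else _, y)
      by_cases h : s y = π
      · rw [if_pos (show y ∈ C π from h), h, if_pos (Finset.mem_insert_self _ _), if_neg hπ]
        simp
      · rw [if_neg (show y ∉ C π from h)]
        simp [h, s'']
    rw [e]
    exact mul_mem (hU _ _) (ih s'' fun y => rfl)

include hnorm in
/-- All zero-sum translations. -/
lemma tr_mem_of_colU (hk : 5 ≤ k) (hU : ∀ π, colU (⊤ : Clopens X) π ∈ H) {v : Fin k → V}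
    (hv : ∑ i, v i = 0) : (tr v : Perm (Fin k × X)) ∈ H := by
  let N : AddSubgroup (Fin k → V) :=
    { carrier := {u | (tr u : Perm (Fin k × X)) ∈ H}
      zero_mem' := by
        show tr 0 ∈ H
        rw [show (tr (0 : Fin k → V) : Perm (Fin k × X)) = 1 from Equiv.ext fun p => by simp [tr]]
        exact one_mem H
      add_mem' := fun {a b} ha hb => by
        show tr (a + b) ∈ H
        rw [tr_mul]; exact mul_mem ha hb
      neg_mem' := fun {a} ha => by
        show tr (-a) ∈ H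
        rw [← tr_inv]; exact inv_mem ha }
  have ht : ∀ y : X, y ∈ (⊤ : Clopens X) := fun _ => trivial
  have hdiff : ∀ (u : Fin k → V), ∑ l, u l = 0 → ∀ π : alternatingGroup (Fin k),
      (u - fun l => u ((π : Perm (Fin k))⁻¹ l)) ∈ N := by
    intro u hu π
    show tr _ ∈ H
    have hc := hU π
    have e : (tr (u - fun l => u ((π : Perm (Fin k))⁻¹ l)) : Perm (Fin k × X)) =
        tr u * colU ⊤ π * (tr u)⁻¹ * (colU ⊤ π)⁻¹ := by
      rw [← map_inv]
      refine Equiv.ext fun ⟨l, y⟩ => ?_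
      simp only [tr_inv, Perm.mul_apply, colU_apply, ht, if_true, tr_apply]
      simp [sub_eq_add_neg, add_vadd]
    rw [e]
    exact mul_mem (hnorm _ (tr_mem hu) _ hc) (inv_mem hc)
  have hsingle : ∀ (a b : Fin k) (x : V), Pi.single a x - Pi.single b x ∈ N := by
    intro a b x
    by_cases hab : a = b
    · subst hab; rw [sub_self]; exact N.zero_mem
    obtain ⟨f, hf⟩ := exists_fresh hk {a, b} (by
      have : ({a, b} : Finset (Fin k)).card ≤ 2 := Finset.card_le_two
      omega)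
    obtain ⟨d, hd⟩ := exists_fresh hk {a, b, f} (by
      have : ({a, b, f} : Finset (Fin k)).card ≤ 3 := Finset.card_le_three
      omega)
    simp only [Finset.mem_insert, Finset.mem_singleton, not_or] at hf hd
    obtain ⟨c1, c2, c3, c4⟩ := cyc_apply hab (Ne.symm hf.2) (Ne.symm hf.1)
    have := hdiff (Pi.single a x - Pi.single d x) (by simp [Finset.sum_sub_distrib])
      ⟨cyc a b f, sign_cyc hab (Ne.symm hf.2)⟩
    convert this using 1
    funext l
    have key : ∀ m, ((cyc a b f)⁻¹ l = m) ↔ l = cyc a b f m := fun m => by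
      rw [Perm.inv_eq_iff_eq]
    simp only [Pi.sub_apply, Pi.single_apply, key, c1, c4 d hd.1 hd.2.1 hd.2.2]
    abel
  let o : Fin k := ⟨0, by omega⟩
  have hsum : ∑ l, Pi.single (M := fun _ => V) o (v l) = 0 := by
    funext m
    by_cases hm : m = o <;> simp [Finset.sum_apply, hm, hv]
  have e : v = ∑ l, (Pi.single l (v l) - Pi.single o (v l)) := by
    rw [Finset.sum_sub_distrib, Finset.univ_sum_single, hsum, sub_zero]
  exact (e ▸ N.sum_mem fun l _ => hsingle _ _ _ : v ∈ N)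

include hnorm in
/-- Such a subgroup contains the whole group. -/
lemma le_of_colU [CompactSpace X] (hk : 5 ≤ k) (hU : ∀ (W : Clopens X) π, colU W π ∈ H) :
    G k V X ≤ H := by
  refine (Subgroup.closure_le _).2 ?_
  rintro g (⟨s, rfl⟩ | ⟨v, hv, rfl⟩)
  exacts [col_mem_of_colU H hU s, tr_mem_of_colU H hnorm hk (hU ⊤) hv]

/-- The group is simple and infinite. -/
theorem simple_infinite [T2Space X] [CompactSpace X] [TotallyDisconnectedSpace X]
    [ContinuousConstVAdd V X] [Nonempty X] [Infinite V] (hk : 5 ≤ k)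
    (hfree : ∀ (v : V) (x : X), v +ᵥ x = x → v = 0)
    (hmin : ∀ U : Set X, IsOpen U → U.Nonempty → ∀ x, ∃ v : V, v +ᵥ x ∈ U) :
    IsSimpleGroup (G k V X) ∧ Infinite (G k V X) := by
  obtain ⟨x⟩ := ‹Nonempty X›
  let a : Fin k := ⟨0, by omega⟩
  let b : Fin k := ⟨1, by omega⟩
  have hab : a ≠ b := by simp [a, b]
  let f : V → G k V X := fun v =>
    ⟨tr (Pi.single a v - Pi.single b v), tr_mem (by simp [Finset.sum_sub_distrib])⟩
  have hf : Function.Injective f := by
    intro u u' h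
    have h' := congrArg (fun g : G k V X => (g : Perm (Fin k × X)) (a, x)) h
    simp [f, hab] at h'
    have : (-u' + u) +ᵥ x = x := by rw [add_vadd, h', neg_vadd_vadd]
    exact (neg_add_eq_zero.1 (hfree _ _ this)).symm
  have hinf := Infinite.of_injective f hf
  refine ⟨{ exists_pair_ne := exists_pair_ne _, eq_bot_or_eq_top_of_normal := fun N hN => ?_ },
    hinf⟩
  by_cases hbot : N = ⊥
  · exact Or.inl hbot
  right
  obtain ⟨g, hg, hg1⟩ : ∃ g ∈ N, g ≠ 1 := by
    by_contra! h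
    exact hbot ((Subgroup.eq_bot_iff_forall N).2 h)
  let H := N.map (G k V X).subtype
  have hHG : H ≤ G k V X := Subgroup.map_subtype_le N
  have hnorm : ∀ g ∈ G k V X, ∀ h ∈ H, g * h * g⁻¹ ∈ H := by
    rintro g hg _ ⟨n, hn, rfl⟩
    exact ⟨⟨g, hg⟩ * n * ⟨g, hg⟩⁻¹, hN.conj_mem n hn _, rfl⟩
  obtain ⟨U, hne, hU⟩ := exists_colU H hnorm hk hfree hHG (h := (g : Perm (Fin k × X)))
    ⟨g, hg, rfl⟩ (fun e => hg1 (Subtype.ext e))
  have hle := le_of_colU H hnorm hk (colU_closure H hnorm hk hmin hne hU)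
  refine eq_top_iff.2 fun n _ => ?_
  obtain ⟨m, hm, e⟩ := hle n.2
  exact (Subtype.ext e : m = n) ▸ hm

end

end Vale.Agent.P196.Simple
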