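import Mathlib

/-!
P196, module C: permutations of finitely many clopen pieces of `Fin k × X`, and the group generated
by even colourings and zero-sum translations.
-/

namespace Vale.Agent.P196.Simple

open scoped Classical
open Equiv

noncomputable section

variable {k : ℕ} {V X : Type*} [AddCommGroup V] [AddAction V X]

/-- A translation in each colour. -/
def tr (v : Fin k → V) : Perm (Fin k × X) where
  toFun p := (p.1, v p.1 +ᵥ p.2)
  invFun p := (p.1, -v p.1 +ᵥ p.2)
  left_inv p := by simp
  right_inv p := by simp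

@[simp] lemma tr_apply (v : Fin k → V) (i : Fin k) (x : X) : tr v (i, x) = (i, v i +ᵥ x) := rfl

lemma tr_mul (v w : Fin k → V) : (tr (v + w) : Perm (Fin k × X)) = tr v * tr w :=
  Equiv.ext fun p => by simp [tr, Perm.mul_apply, add_vadd]

lemma tr_inv (v : Fin k → V) : (tr v : Perm (Fin k × X))⁻¹ = tr (-v) :=
  Equiv.ext fun _ => rfl

variable [TopologicalSpace X]

/-- A colouring: an even permutation of the colours at each point, locally constant. -/
def col (s : LocallyConstant X (alternatingGroup (Fin k))) : Perm (Fin k × X) where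
  toFun p := ((s p.2 : Perm (Fin k)) p.1, p.2)
  invFun p := ((s p.2 : Perm (Fin k)).symm p.1, p.2)
  left_inv p := by simp
  right_inv p := by simp

@[simp] lemma col_apply (s : LocallyConstant X (alternatingGroup (Fin k))) (i : Fin k) (x : X) :
    col s (i, x) = ((s x : Perm (Fin k)) i, x) := rfl

lemma col_mul (s s' : LocallyConstant X (alternatingGroup (Fin k))) :
    col (s * s') = col s * col s' :=
  Equiv.ext fun p => by simp [col, Perm.mul_apply]

lemma col_inv (s : LocallyConstant X (alternatingGroup (Fin k))) :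
    (col s)⁻¹ = col s⁻¹ :=
  Equiv.ext fun _ => rfl

/-- An even permutation of the colours on a clopen set. -/
def colU (U : TopologicalSpace.Clopens X) :
    alternatingGroup (Fin k) →* Perm (Fin k × X) where
  toFun π := col ⟨fun x => if x ∈ U then π else 1,
    (IsLocallyConstant.iff_exists_open _).2 fun x => by
      by_cases hx : x ∈ U
      · exact ⟨U, U.2.isOpen, hx, fun y hy => by simp [hx, show y ∈ U from hy]⟩
      · exact ⟨(↑U)ᶜ, U.2.compl.isOpen, hx, fun y hy => by simp [hx, show y ∉ U from hy]⟩⟩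
  map_one' := Equiv.ext fun p => by simp [col]
  map_mul' π ρ := by
    rw [← col_mul]
    congr 1
    ext x : 1
    show (if x ∈ U then π * ρ else 1) =
      (if x ∈ U then π else 1) * (if x ∈ U then ρ else 1)
    split_ifs <;> simp

lemma colU_apply (U : TopologicalSpace.Clopens X) (π : alternatingGroup (Fin k)) (i : Fin k)
    (x : X) : colU U π (i, x) = (if x ∈ U then (π : Perm (Fin k)) i else i, x) := by
  show ((((if x ∈ U then π else 1) : alternatingGroup (Fin k)) : Perm (Fin k)) i, x) = _
  split_ifs <;> simp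

variable (k V X) in
/-- The group generated by colourings and zero-sum translations. -/
def G : Subgroup (Perm (Fin k × X)) :=
  Subgroup.closure (Set.range (col (k := k) (X := X)) ∪
    (tr (k := k) (V := V) (X := X)) '' {v | ∑ i, v i = 0})

lemma col_mem (s : LocallyConstant X (alternatingGroup (Fin k))) : col s ∈ G k V X :=
  Subgroup.subset_closure (Or.inl ⟨s, rfl⟩)

lemma colU_mem (U : TopologicalSpace.Clopens X) (π : alternatingGroup (Fin k)) :
    colU U π ∈ G k V X :=
  Subgroup.subset_closure (Or.inl ⟨_, rfl⟩)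

lemma tr_mem {v : Fin k → V} (hv : ∑ i, v i = 0) : (tr v : Perm (Fin k × X)) ∈ G k V X :=
  Subgroup.subset_closure (Or.inr ⟨v, hv, rfl⟩)

/-! ### Permutations along embeddings -/

section Via

variable {α β : Type*}

lemma viaEmbedding_ext {e : α ↪ β} {σ : Perm α} {g : Perm β}
    (h1 : ∀ a, g (e a) = e (σ a)) (h2 : ∀ b, b ∉ Set.range e → g b = b) :
    Perm.viaEmbedding σ e = g := by
  ext b
  by_cases hb : b ∈ Set.range e
  · obtain ⟨a, rfl⟩ := hb
    rw [Perm.viaEmbedding_apply, h1]
  · rw [Perm.viaEmbedding_apply_of_notMem _ _ b hb, h2 b hb]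

lemma conj_viaEmbedding {e e' : α ↪ β} {g : Perm β} (h : ∀ a, g (e a) = e' a) (σ : Perm α) :
    Perm.viaEmbedding σ e' = g * Perm.viaEmbedding σ e * g⁻¹ := by
  refine viaEmbedding_ext (fun a => ?_) fun b hb => ?_
  · rw [← h a, Perm.mul_apply, Perm.mul_apply, Perm.inv_def, Equiv.symm_apply_apply,
      Perm.viaEmbedding_apply, h]
  · have : g⁻¹ b ∉ Set.range e := by
      rintro ⟨a, ha⟩
      exact hb ⟨a, by rw [← h, ha, Perm.inv_def, Equiv.apply_symm_apply]⟩
    rw [Perm.mul_apply, Perm.mul_apply, Perm.viaEmbedding_apply_of_notMem _ _ _ this,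
      Perm.inv_def, Equiv.apply_symm_apply]

end Via

/-- The translates of `U` by different elements of `D` are disjoint. -/
def Apart (U : Set X) (D : Set V) : Prop :=
  ∀ v ∈ D, ∀ w ∈ D, ∀ x ∈ U, ∀ y ∈ U, v +ᵥ x = w +ᵥ y → v = w

/-- Finitely many pieces, as one embedding. -/
def piece {ι : Type*} (P : ι ↪ Fin k × V) (U : Set X)
    (hU : Apart U (Set.range fun a => (P a).2)) : ι × U ↪ Fin k × X where
  toFun p := ((P p.1).1, (P p.1).2 +ᵥ (p.2 : X))
  inj' := by
    rintro ⟨a, x⟩ ⟨b, y⟩ h
    simp only [Prod.mk.injEq] at h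
    have hv := hU _ ⟨a, rfl⟩ _ ⟨b, rfl⟩ x x.2 y y.2 h.2
    simp only at hv
    obtain rfl := P.injective (Prod.ext h.1 hv)
    exact Prod.ext rfl (Subtype.ext (vadd_left_cancel _ h.2))

/-- The homomorphism permuting the pieces. -/
def Φ {ι : Type*} (P : ι ↪ Fin k × V) (U : Set X) (hU : Apart U (Set.range fun a => (P a).2)) :
    Perm ι →* Perm (Fin k × X) :=
  (Perm.viaEmbeddingHom (piece P U hU)).comp
    { toFun := fun σ => σ.prodCongr (Equiv.refl U)
      map_one' := by ext <;> simp
      map_mul' := fun σ τ => by ext <;> simp }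

omit [TopologicalSpace X] in
lemma Φ_eq {ι : Type*} (P : ι ↪ Fin k × V) (U : Set X)
    (hU : Apart U (Set.range fun a => (P a).2)) (σ : Perm ι) :
    Φ P U hU σ = Perm.viaEmbedding (σ.prodCongr (Equiv.refl U)) (piece P U hU) := rfl

omit [TopologicalSpace X] in
/-- A permutation of the pieces supported on a subfamily. -/
lemma Φ_sub {ι κ : Type*} (P : ι ↪ Fin k × V) (f : κ ↪ ι) (U : Set X)
    (hU : Apart U (Set.range fun a => (P a).2))
    (hU' : Apart U (Set.range fun a => ((f.trans P) a).2)) (σ : Perm κ) :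
    Φ (f.trans P) U hU' σ = Φ P U hU (σ.viaEmbedding f) := by
  rw [Φ_eq, Φ_eq]
  refine viaEmbedding_ext (fun ⟨a, x⟩ => ?_) fun b hb => ?_
  · show Perm.viaEmbedding _ _ (piece P U hU (f a, x)) = piece P U hU (f (σ a), x)
    rw [Perm.viaEmbedding_apply]
    show piece P U hU (σ.viaEmbedding f (f a), x) = _
    rw [Perm.viaEmbedding_apply]
  · by_cases hb' : b ∈ Set.range (piece P U hU)
    · obtain ⟨⟨a, x⟩, rfl⟩ := hb'
      have ha : a ∉ Set.range f := by
        rintro ⟨c, rfl⟩
        exact hb ⟨(c, x), rfl⟩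
      rw [Perm.viaEmbedding_apply]
      show piece P U hU (σ.viaEmbedding f a, x) = _
      rw [Perm.viaEmbedding_apply_of_notMem _ _ _ ha]
    · rw [Perm.viaEmbedding_apply_of_notMem _ _ _ hb']

end

end Vale.Agent.P196.Simple
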